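import Vale.Agent.P086.Core.Ops
import Vale.Agent.P086.Core.Semi
import Vale.Agent.P086.Core.Calc
import Vale.Agent.P086.Core.Gns
import Vale.Agent.P086.Core.Exist
import Vale.Agent.P086.Core.Conv
import Vale.Agent.P086.Encode.Move
import Vale.Agent.P086.Encode.Stage
import Vale.Agent.P086.Encode.Groups
import Vale.Agent.P086.Model.Mat
import Vale.Agent.P086.Model.Raw
import Vale.Agent.P086.Model.Gauge
import Vale.Agent.P086.Model.Main
import Vale.Agent.P086.Final.Step
import Vale.Agent.P086.Final.Limit
import Vale.Agent.P086.Final.Main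

/-!
# P086: the free group factors of rank two and three are isomorphic
-/

noncomputable section

namespace Vale.Agent.Results.P086.RankIsomorphism

open Vale.Agent.P086
open scoped InnerProductSpace ENNReal

theorem result :
    ∃ U : L2G (FreeGroup (Fin 2)) ≃ₗᵢ[ℂ] L2G (FreeGroup (Fin 3)),
      conjU U '' groupVN (FreeGroup (Fin 2)) = groupVN (FreeGroup (Fin 3)) := by
  have hS : SemiGoal := semiGoal
  have hC : CalcGoal.{0} := calcGoal hS
  have hO : OpsGoal.{0} := opsGoal
  have hT : TraceGoal.{0} := traceGoal
  have hM : MatGoal.{0} := matGoal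
  have hConv : ConvGoal.{0} := convGoal hS hC hO
  have hEnc : EncodeGoal.{0} := encodeGoal hT (stageGoal (Move.moveGoal hO hT) hT)
  have hModel : ModelGoal.{0} := modelGoal hO hT hS hC hM (rawGoal hS hC hC hM)
    (gaugeGoal hS hC hM hM) existGoal
  have hStep : StepGoal.{0} :=
    stepGoal hO hS hC gnsGoal gnsGoal hConv existGoal hEnc hM hModel
  exact finalOf existGoal hConv gnsGoal (limitGoal hO hStep)

end Vale.Agent.Results.P086.RankIsomorphism
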